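import Mathlib.Tactic.Linarith
import Mathlib.Data.Real.Basic

set_option autoImplicit false
set_option linter.unusedVariables false

namespace Vale.Agent.P052.H638

theorem cls1_0 (z1 z2 z3 r y1 y2 y3 : ℝ)
    (zC2 : 0 ≤ 21/100 + 25/42 * r - z2)
    (yOmpp : 0 ≤ 499/576 + y1 - y2 - y3)
    (r1 : 0 ≤ 1/2 - r)
    (yOmmm : 0 ≤ 499/576 + y1 + y2 + y3)
    (zOmpp : 0 ≤ 27/64 + 8/9 * r + z1 - z2 - z3)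
    (s_z3my3_p : 0 ≤ z3 - y3)
    (zM3 : 0 ≤ z3 - z1)
    (zB : 0 ≤ -81/1000 - z1 - 7/40 * (z1 + z2 + z3))
    (yB : 0 ≤ -81/1000 - y1 - 7/40 * (y1 + y2 + y3))
    (s_z2mz3_p : 0 ≤ z2 - z3)
    (r0 : 0 ≤ r - 1/4)
    (s_z2my2_p : 0 ≤ z2 - y2)
    (yM2 : 0 ≤ y2 - y1)
    (yOmmp : 0 ≤ 499/576 + y1 + y2 - y3)
    (yM3 : 0 ≤ y3 - y1)
    (zOmmm : 0 ≤ 27/64 + 8/9 * r + z1 + z2 + z3)
    (yOmpm : 0 ≤ 499/576 + y1 - y2 + y3)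
    (zOmmp : 0 ≤ 27/64 + 8/9 * r + z1 + z2 - z3)
    (yOppp : 0 ≤ 499/576 - y1 - y2 - y3)
    (zOmpm : 0 ≤ 27/64 + 8/9 * r + z1 - z2 + z3) :
    (z1 - y1) ^ 2 + (z2 - y2) ^ 2 + (z3 - y3) ^ 2 ≤ r + 1/2 - 1/2000 := by
  linarith only [mul_nonneg zC2 yOmpp, mul_nonneg r1 yOmmm, mul_nonneg zOmpp s_z3my3_p,
    mul_nonneg zOmpp zM3, mul_nonneg zOmpp zC2, mul_nonneg zB yB,
    mul_nonneg zC2 s_z2mz3_p, mul_nonneg zOmpp r0, mul_nonneg zC2 s_z2my2_p,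
    mul_nonneg zM3 yM2, mul_nonneg yOmmp yM3, mul_nonneg zOmmm zB, mul_nonneg zB r1,
    mul_nonneg zOmpp yOmmp, mul_nonneg yOmpm yM2, mul_nonneg zB yM2, mul_nonneg r0 yM2,
    mul_nonneg r1 yOmmp, mul_nonneg yOmmm s_z3my3_p, mul_nonneg zOmpp yOmpp,
    mul_nonneg zOmmp yOmmm, mul_nonneg yOmmp s_z2my2_p, mul_nonneg zB yOppp,
    mul_nonneg yOmmm s_z2my2_p, mul_nonneg yOmmp yB, mul_nonneg r0 r1,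
    mul_nonneg zOmpp yOmmm, mul_nonneg r1 s_z2mz3_p, mul_nonneg zC2 yOmpm,
    mul_nonneg yOmmm yM2, mul_nonneg yM2 s_z2my2_p, mul_nonneg yOmmp s_z2mz3_p,
    mul_nonneg zOmpm zB, mul_nonneg zOmpm yOmmm, mul_nonneg zM3 r1]

theorem cls1_1 (z1 z2 z3 r y1 y2 y3 : ℝ)
    (zOmmm : 0 ≤ 27/64 + 8/9 * r + z1 + z2 + z3)
    (yOmmm : 0 ≤ 499/576 + y1 + y2 + y3)
    (r1 : 0 ≤ 1/2 - r)
    (s_z2mz3_m : 0 ≤ -(z2 - z3))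
    (zOmmp : 0 ≤ 27/64 + 8/9 * r + z1 + z2 - z3)
    (zB : 0 ≤ -81/1000 - z1 - 7/40 * (z1 + z2 + z3))
    (yM3 : 0 ≤ y3 - y1)
    (s_z2my2_p : 0 ≤ z2 - y2)
    (yOmpm : 0 ≤ 499/576 + y1 - y2 + y3)
    (zOmpp : 0 ≤ 27/64 + 8/9 * r + z1 - z2 - z3)
    (yOpmp : 0 ≤ 499/576 - y1 + y2 - y3)
    (s_z3my3_p : 0 ≤ z3 - y3)
    (zC3 : 0 ≤ 21/100 + 25/42 * r - z3)
    (yOmpp : 0 ≤ 499/576 + y1 - y2 - y3)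
    (r0 : 0 ≤ r - 1/4)
    (zM2 : 0 ≤ z2 - z1)
    (yB : 0 ≤ -81/1000 - y1 - 7/40 * (y1 + y2 + y3))
    (yM2 : 0 ≤ y2 - y1)
    (yOmmp : 0 ≤ 499/576 + y1 + y2 - y3)
    (zOmpm : 0 ≤ 27/64 + 8/9 * r + z1 - z2 + z3)
    (zM3 : 0 ≤ z3 - z1) :
    (z1 - y1) ^ 2 + (z2 - y2) ^ 2 + (z3 - y3) ^ 2 ≤ r + 1/2 - 1/2000 := by
  linarith only [mul_nonneg zOmmm yOmmm, mul_nonneg r1 s_z2mz3_m, mul_nonneg zOmmp yOmmm,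
    mul_nonneg zB yM3, mul_nonneg yOmmm s_z2my2_p, mul_nonneg zOmmm yOmpm,
    mul_nonneg zOmmp zOmpp, mul_nonneg yOmpm s_z2mz3_m, mul_nonneg r1 yOpmp,
    mul_nonneg zOmpp yOmmm, mul_nonneg zOmmp zB, mul_nonneg yOmmm s_z3my3_p,
    mul_nonneg zC3 yOmpp, mul_nonneg zC3 s_z3my3_p, mul_nonneg r0 yM3,
    mul_nonneg zM2 yM3, mul_nonneg zB yB, mul_nonneg zC3 s_z2mz3_m, mul_nonneg yOmpm yM2,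
    mul_nonneg zOmpp zM2, mul_nonneg r1 yOmmm, mul_nonneg zC3 yOmmp,
    mul_nonneg zOmpp yOmpp, mul_nonneg zOmpp zC3, mul_nonneg zOmpm zB,
    mul_nonneg r1 yOmpm, mul_nonneg yOmmp yM3, mul_nonneg zB r1, mul_nonneg zOmpp r0,
    mul_nonneg zOmpp yOmpm, mul_nonneg zM3 yM3, mul_nonneg r0 r1,
    mul_nonneg zOmpp s_z2my2_p]

theorem cls1_2 (z1 z2 z3 r y1 y2 y3 : ℝ)
    (yOmpm : 0 ≤ 499/576 + y1 - y2 + y3)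
    (s_z2my2_m : 0 ≤ -(z2 - y2))
    (zOmmp : 0 ≤ 27/64 + 8/9 * r + z1 + z2 - z3)
    (zC3 : 0 ≤ 21/100 + 25/42 * r - z3)
    (yOmmm : 0 ≤ 499/576 + y1 + y2 + y3)
    (zM2 : 0 ≤ z2 - z1)
    (yM3 : 0 ≤ y3 - y1)
    (zM3 : 0 ≤ z3 - z1)
    (zB : 0 ≤ -81/1000 - z1 - 7/40 * (z1 + z2 + z3))
    (s_z2az3_p : 0 ≤ z2 + z3)
    (s_z1my1_p : 0 ≤ z1 - y1)
    (s_z3my3_p : 0 ≤ z3 - y3)
    (yOmpp : 0 ≤ 499/576 + y1 - y2 - y3)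
    (r0 : 0 ≤ r - 1/4)
    (r1 : 0 ≤ 1/2 - r)
    (yC2 : 0 ≤ 533/1050 - y2)
    (zOmmm : 0 ≤ 27/64 + 8/9 * r + z1 + z2 + z3) :
    (z1 - y1) ^ 2 + (z2 - y2) ^ 2 + (z3 - y3) ^ 2 ≤ r + 1/2 - 1/2000 := by
  linarith only [mul_nonneg yOmpm s_z2my2_m, mul_nonneg zOmmp zC3, mul_nonneg zOmmp yOmmm,
    mul_nonneg zM2 s_z2my2_m, mul_nonneg zM2 yM3, mul_nonneg zM2 zM3, mul_nonneg zM3 yM3,
    mul_nonneg zB yM3, mul_nonneg zC3 s_z2az3_p, mul_nonneg zB s_z1my1_p,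
    mul_nonneg yOmpm s_z2az3_p, mul_nonneg yOmpm s_z3my3_p, mul_nonneg yOmpm yOmpm,
    mul_nonneg zM2 yOmmm, mul_nonneg zM3 yOmpm, mul_nonneg zM2 s_z2az3_p,
    mul_nonneg yOmpp yM3, mul_nonneg r0 r1, mul_nonneg r1 yC2, mul_nonneg zB r1,
    mul_nonneg zC3 s_z3my3_p, mul_nonneg zC3 yC2, mul_nonneg r1 yOmpm, mul_nonneg zM2 r1,
    mul_nonneg yOmpm yM3, mul_nonneg zM2 zM2, mul_nonneg yOmmm s_z2az3_p,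
    mul_nonneg yOmmm yC2, mul_nonneg yOmmm s_z1my1_p, mul_nonneg zC3 yOmpp,
    mul_nonneg r0 yOmmm, mul_nonneg zC3 r0, mul_nonneg zOmmm zM2, mul_nonneg r0 yM3,
    mul_nonneg zOmmp zB]

theorem cls1_3 (z1 z2 z3 r y1 y2 y3 : ℝ)
    (zOppp : 0 ≤ 27/64 + 8/9 * r - z1 - z2 - z3)
    (r0 : 0 ≤ r - 1/4)
    (yOmpm : 0 ≤ 499/576 + y1 - y2 + y3)
    (s_z3my3_p : 0 ≤ z3 - y3)
    (zB : 0 ≤ -81/1000 - z1 - 7/40 * (z1 + z2 + z3))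
    (yC2 : 0 ≤ 533/1050 - y2)
    (zM2 : 0 ≤ z2 - z1)
    (yOpmp : 0 ≤ 499/576 - y1 + y2 - y3)
    (zM3 : 0 ≤ z3 - z1)
    (yM2 : 0 ≤ y2 - y1)
    (zOmpm : 0 ≤ 27/64 + 8/9 * r + z1 - z2 + z3)
    (zOmmp : 0 ≤ 27/64 + 8/9 * r + z1 + z2 - z3)
    (r1 : 0 ≤ 1/2 - r)
    (zOmmm : 0 ≤ 27/64 + 8/9 * r + z1 + z2 + z3)
    (s_z2az3_m : 0 ≤ -(z2 + z3))
    (zOpmm : 0 ≤ 27/64 + 8/9 * r - z1 + z2 + z3)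
    (yOmmp : 0 ≤ 499/576 + y1 + y2 - y3)
    (yOmmm : 0 ≤ 499/576 + y1 + y2 + y3)
    (s_z1my1_p : 0 ≤ z1 - y1)
    (yM3 : 0 ≤ y3 - y1)
    (s_z2my2_m : 0 ≤ -(z2 - y2))
    (yOppp : 0 ≤ 499/576 - y1 - y2 - y3)
    (yOmpp : 0 ≤ 499/576 + y1 - y2 - y3) :
    (z1 - y1) ^ 2 + (z2 - y2) ^ 2 + (z3 - y3) ^ 2 ≤ r + 1/2 - 1/2000 := by
  linarith only [mul_nonneg zOppp r0, mul_nonneg yOmpm s_z3my3_p, mul_nonneg zB yC2,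
    mul_nonneg zM2 yOpmp, mul_nonneg zM2 zM3, mul_nonneg yOmpm yM2,
    mul_nonneg zOmpm yOmpm, mul_nonneg zOmmp r0, mul_nonneg r0 r1,
    mul_nonneg zOmmm s_z2az3_m, mul_nonneg yC2 s_z2az3_m, mul_nonneg zOpmm r0,
    mul_nonneg zOmmp yOmmp, mul_nonneg yOmmm yC2, mul_nonneg yOmmm s_z1my1_p,
    mul_nonneg zOmmm yOmpm, mul_nonneg yOmpm yM3, mul_nonneg zOmpm zM2,
    mul_nonneg yOmpm s_z1my1_p, mul_nonneg zM2 s_z1my1_p, mul_nonneg yM3 s_z3my3_p,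
    mul_nonneg zM2 s_z2my2_m, mul_nonneg s_z3my3_p s_z2az3_m, mul_nonneg zOmmp s_z3my3_p,
    mul_nonneg zOmpm r0, mul_nonneg r0 yOppp, mul_nonneg yOmmp yC2, mul_nonneg zM2 yOmmm,
    mul_nonneg r0 s_z1my1_p, mul_nonneg r0 yOmpm, mul_nonneg yOmpp s_z1my1_p,
    mul_nonneg zOmmp zB, mul_nonneg zOmmp yOmmm, mul_nonneg zOmmm zM2,
    mul_nonneg zOmmm yOmmm]

theorem cls1_4 (z1 z2 z3 r y1 y2 y3 : ℝ)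
    (yC2 : 0 ≤ 533/1050 - y2)
    (s_z1my1_m : 0 ≤ -(z1 - y1))
    (zOmmp : 0 ≤ 27/64 + 8/9 * r + z1 + z2 - z3)
    (s_z2my2_m : 0 ≤ -(z2 - y2))
    (zOppm : 0 ≤ 27/64 + 8/9 * r - z1 - z2 + z3)
    (yM3 : 0 ≤ y3 - y1)
    (zOmpp : 0 ≤ 27/64 + 8/9 * r + z1 - z2 - z3)
    (r0 : 0 ≤ r - 1/4)
    (yB : 0 ≤ -81/1000 - y1 - 7/40 * (y1 + y2 + y3))
    (zM2 : 0 ≤ z2 - z1)
    (r1 : 0 ≤ 1/2 - r)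
    (yOmmp : 0 ≤ 499/576 + y1 + y2 - y3)
    (zOpmp : 0 ≤ 27/64 + 8/9 * r - z1 + z2 - z3)
    (yOpmm : 0 ≤ 499/576 - y1 + y2 + y3)
    (zOmmm : 0 ≤ 27/64 + 8/9 * r + z1 + z2 + z3)
    (yOmpm : 0 ≤ 499/576 + y1 - y2 + y3)
    (s_z3my3_p : 0 ≤ z3 - y3)
    (yOpmp : 0 ≤ 499/576 - y1 + y2 - y3)
    (yOmmm : 0 ≤ 499/576 + y1 + y2 + y3)
    (zC3 : 0 ≤ 21/100 + 25/42 * r - z3) :
    (z1 - y1) ^ 2 + (z2 - y2) ^ 2 + (z3 - y3) ^ 2 ≤ r + 1/2 - 1/2000 := by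
  linarith only [mul_nonneg yC2 s_z1my1_m, mul_nonneg zOmmp s_z2my2_m, mul_nonneg zOppm yM3,
    mul_nonneg zOmmp zOmpp, mul_nonneg r0 yM3, mul_nonneg yB s_z1my1_m,
    mul_nonneg zM2 r1, mul_nonneg zOmmp r0, mul_nonneg yOmmp yC2, mul_nonneg zM2 yB,
    mul_nonneg zOpmp yM3, mul_nonneg zOmpp zM2, mul_nonneg yC2 s_z2my2_m,
    mul_nonneg zM2 yOpmm, mul_nonneg zOmmm r1, mul_nonneg yOmpm yB, mul_nonneg yM3 yB,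
    mul_nonneg zOmmm s_z1my1_m, mul_nonneg zOmmp s_z3my3_p, mul_nonneg r0 yB,
    mul_nonneg r1 yOmpm, mul_nonneg zOpmp zM2, mul_nonneg yOpmp yM3,
    mul_nonneg yM3 s_z3my3_p, mul_nonneg r1 yC2, mul_nonneg zOmmm yOmmm,
    mul_nonneg zOmmm zC3, mul_nonneg zOmmm yOmpm, mul_nonneg yOmpm yC2,
    mul_nonneg zOppm zOmmp, mul_nonneg zOmmp zOpmp, mul_nonneg zOmmm zOmmp,
    mul_nonneg zOmmm yM3, mul_nonneg r0 r1, mul_nonneg zOmpp yC2]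

theorem cls1_5 (z1 z2 z3 r y1 y2 y3 : ℝ)
    (zC2 : 0 ≤ 21/100 + 25/42 * r - z2)
    (r0 : 0 ≤ r - 1/4)
    (yOmpp : 0 ≤ 499/576 + y1 - y2 - y3)
    (yM2 : 0 ≤ y2 - y1)
    (yC3 : 0 ≤ 533/1050 - y3)
    (zB : 0 ≤ -81/1000 - z1 - 7/40 * (z1 + z2 + z3))
    (zM3 : 0 ≤ z3 - z1)
    (zM2 : 0 ≤ z2 - z1)
    (yOmmp : 0 ≤ 499/576 + y1 + y2 - y3)
    (s_z2az3_p : 0 ≤ z2 + z3)
    (yOmmm : 0 ≤ 499/576 + y1 + y2 + y3)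
    (r1 : 0 ≤ 1/2 - r)
    (s_z1my1_p : 0 ≤ z1 - y1)
    (s_z2my2_p : 0 ≤ z2 - y2)
    (s_z3my3_m : 0 ≤ -(z3 - y3))
    (yB : 0 ≤ -81/1000 - y1 - 7/40 * (y1 + y2 + y3))
    (zOmpm : 0 ≤ 27/64 + 8/9 * r + z1 - z2 + z3) :
    (z1 - y1) ^ 2 + (z2 - y2) ^ 2 + (z3 - y3) ^ 2 ≤ r + 1/2 - 1/2000 := by
  linarith only [mul_nonneg zC2 r0, mul_nonneg yOmpp yM2, mul_nonneg zC2 yOmpp, mul_nonneg zC2 yC3,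
    mul_nonneg zB yM2, mul_nonneg zM3 zM3, mul_nonneg zM2 zM3,
    mul_nonneg yOmmp s_z2az3_p, mul_nonneg yOmmm s_z2az3_p, mul_nonneg zM3 r1,
    mul_nonneg r0 r1, mul_nonneg zB r1, mul_nonneg yOmmm yC3, mul_nonneg r0 yOmmm,
    mul_nonneg zC2 s_z1my1_p, mul_nonneg r1 yC3, mul_nonneg zM2 yOmmp,
    mul_nonneg zC2 s_z2my2_p, mul_nonneg zC2 s_z2az3_p, mul_nonneg yOmmp yOmmp,
    mul_nonneg zB yOmmp, mul_nonneg yM2 s_z2az3_p, mul_nonneg zM3 s_z2az3_p,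
    mul_nonneg yOmmp s_z3my3_m, mul_nonneg zB s_z1my1_p, mul_nonneg zM3 yB,
    mul_nonneg zM3 s_z3my3_m, mul_nonneg r0 yM2, mul_nonneg zOmpm zB, mul_nonneg yC3 yM2,
    mul_nonneg zOmpm yOmmm, mul_nonneg yOmmm s_z1my1_p, mul_nonneg yOmmp yM2,
    mul_nonneg r1 yOmmp, mul_nonneg yOmmp s_z2my2_p]

theorem cls1_6 (z1 z2 z3 r y1 y2 y3 : ℝ)
    (zOmmp : 0 ≤ 27/64 + 8/9 * r + z1 + z2 - z3)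
    (zM3 : 0 ≤ z3 - z1)
    (yC3 : 0 ≤ 533/1050 - y3)
    (s_z2az3_m : 0 ≤ -(z2 + z3))
    (zOmmm : 0 ≤ 27/64 + 8/9 * r + z1 + z2 + z3)
    (yOmpm : 0 ≤ 499/576 + y1 - y2 + y3)
    (s_z1my1_p : 0 ≤ z1 - y1)
    (zOmpm : 0 ≤ 27/64 + 8/9 * r + z1 - z2 + z3)
    (yOmmp : 0 ≤ 499/576 + y1 + y2 - y3)
    (r0 : 0 ≤ r - 1/4)
    (yOmpp : 0 ≤ 499/576 + y1 - y2 - y3)
    (s_z2my2_p : 0 ≤ z2 - y2)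
    (yOmmm : 0 ≤ 499/576 + y1 + y2 + y3)
    (s_z3my3_m : 0 ≤ -(z3 - y3))
    (yM2 : 0 ≤ y2 - y1)
    (zB : 0 ≤ -81/1000 - z1 - 7/40 * (z1 + z2 + z3))
    (yOpmp : 0 ≤ 499/576 - y1 + y2 - y3)
    (r1 : 0 ≤ 1/2 - r)
    (zOmpp : 0 ≤ 27/64 + 8/9 * r + z1 - z2 - z3)
    (yOppm : 0 ≤ 499/576 - y1 - y2 + y3) :
    (z1 - y1) ^ 2 + (z2 - y2) ^ 2 + (z3 - y3) ^ 2 ≤ r + 1/2 - 1/2000 := by
  linarith only [mul_nonneg zOmmp zM3, mul_nonneg yC3 s_z2az3_m, mul_nonneg zOmmm s_z2az3_m,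
    mul_nonneg yOmpm s_z1my1_p, mul_nonneg zOmpm yOmpm, mul_nonneg zOmmm yOmmp,
    mul_nonneg zOmmm zM3, mul_nonneg r0 yOmpp, mul_nonneg yOmmp s_z2my2_p,
    mul_nonneg zOmpm zM3, mul_nonneg zOmmm yOmmm, mul_nonneg zM3 yOmmm,
    mul_nonneg zOmmp yOmmp, mul_nonneg zM3 s_z3my3_m, mul_nonneg yOmmp yM2,
    mul_nonneg yOmmp s_z3my3_m, mul_nonneg yOmmp s_z1my1_p, mul_nonneg zOmpm s_z2my2_p,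
    mul_nonneg zOmpm zB, mul_nonneg zOmmm r0, mul_nonneg r0 yOpmp,
    mul_nonneg yOmpp s_z1my1_p, mul_nonneg r0 r1, mul_nonneg zOmpm yOmmm,
    mul_nonneg zOmpp r0, mul_nonneg zM3 yOppm, mul_nonneg s_z2my2_p s_z2az3_m,
    mul_nonneg yOmmm yC3, mul_nonneg yM2 s_z2my2_p, mul_nonneg yOmpm yC3,
    mul_nonneg r0 yOppm, mul_nonneg r0 s_z1my1_p, mul_nonneg zM3 yM2, mul_nonneg zB yC3]

theorem cls1_7 (z1 z2 z3 r y1 y2 y3 : ℝ)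
    (zOpmm : 0 ≤ 27/64 + 8/9 * r - z1 + z2 + z3)
    (zOmpm : 0 ≤ 27/64 + 8/9 * r + z1 - z2 + z3)
    (zM3 : 0 ≤ z3 - z1)
    (yB : 0 ≤ -81/1000 - y1 - 7/40 * (y1 + y2 + y3))
    (zOmmm : 0 ≤ 27/64 + 8/9 * r + z1 + z2 + z3)
    (r1 : 0 ≤ 1/2 - r)
    (s_z2my2_p : 0 ≤ z2 - y2)
    (r0 : 0 ≤ r - 1/4)
    (zOppm : 0 ≤ 27/64 + 8/9 * r - z1 - z2 + z3)
    (yM2 : 0 ≤ y2 - y1)
    (yOmmp : 0 ≤ 499/576 + y1 + y2 - y3)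
    (yC3 : 0 ≤ 533/1050 - y3)
    (yOppp : 0 ≤ 499/576 - y1 - y2 - y3)
    (s_z1my1_m : 0 ≤ -(z1 - y1))
    (zOmpp : 0 ≤ 27/64 + 8/9 * r + z1 - z2 - z3)
    (s_z3my3_m : 0 ≤ -(z3 - y3))
    (yOmmm : 0 ≤ 499/576 + y1 + y2 + y3)
    (yOppm : 0 ≤ 499/576 - y1 - y2 + y3)
    (yOmpp : 0 ≤ 499/576 + y1 - y2 - y3)
    (zC2 : 0 ≤ 21/100 + 25/42 * r - z2)
    (zOmmp : 0 ≤ 27/64 + 8/9 * r + z1 + z2 - z3) :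
    (z1 - y1) ^ 2 + (z2 - y2) ^ 2 + (z3 - y3) ^ 2 ≤ r + 1/2 - 1/2000 := by
  linarith only [mul_nonneg zOpmm zOmpm, mul_nonneg zM3 yB, mul_nonneg zOmmm r1,
    mul_nonneg zOmpm s_z2my2_p, mul_nonneg r0 yB, mul_nonneg zOppm zM3, mul_nonneg r0 r1,
    mul_nonneg zM3 yM2, mul_nonneg yOmmp yB, mul_nonneg r1 yC3, mul_nonneg zM3 yOppp,
    mul_nonneg zOmmm s_z1my1_m, mul_nonneg yB s_z1my1_m, mul_nonneg zOmpm r0,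
    mul_nonneg zOmpm zOmpm, mul_nonneg zOmpp zM3, mul_nonneg zOmpm s_z3my3_m,
    mul_nonneg yOmmm yC3, mul_nonneg zOmmm zOmpp, mul_nonneg zM3 r1,
    mul_nonneg yC3 s_z1my1_m, mul_nonneg yOppm yM2, mul_nonneg yOmpp yM2,
    mul_nonneg zOmpp yC3, mul_nonneg zOmmm yM2, mul_nonneg zM3 yOppm,
    mul_nonneg zOmmm yOmmp, mul_nonneg zOmmm zC2, mul_nonneg zOmpm zOmmp,
    mul_nonneg r1 yOmmp, mul_nonneg yM2 s_z2my2_p, mul_nonneg r0 yM2,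
    mul_nonneg yC3 s_z3my3_m, mul_nonneg yOppp yM2, mul_nonneg r1 yOppm]

theorem cls1_8 (z1 z2 z3 r y1 y2 y3 : ℝ)
    (zOmmm : 0 ≤ 27/64 + 8/9 * r + z1 + z2 + z3)
    (s_z3my3_m : 0 ≤ -(z3 - y3))
    (yOmmm : 0 ≤ 499/576 + y1 + y2 + y3)
    (zM2 : 0 ≤ z2 - z1)
    (r1 : 0 ≤ 1/2 - r)
    (zOmpp : 0 ≤ 27/64 + 8/9 * r + z1 - z2 - z3)
    (yOmpp : 0 ≤ 499/576 + y1 - y2 - y3)
    (zM3 : 0 ≤ z3 - z1)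
    (r0 : 0 ≤ r - 1/4)
    (zOmpm : 0 ≤ 27/64 + 8/9 * r + z1 - z2 + z3)
    (yC2 : 0 ≤ 533/1050 - y2)
    (s_z2my2_m : 0 ≤ -(z2 - y2))
    (zB : 0 ≤ -81/1000 - z1 - 7/40 * (z1 + z2 + z3))
    (yB : 0 ≤ -81/1000 - y1 - 7/40 * (y1 + y2 + y3))
    (s_y2my3_p : 0 ≤ y2 - y3)
    (zOmmp : 0 ≤ 27/64 + 8/9 * r + z1 + z2 - z3)
    (yOmpm : 0 ≤ 499/576 + y1 - y2 + y3) :
    (z1 - y1) ^ 2 + (z2 - y2) ^ 2 + (z3 - y3) ^ 2 ≤ r + 1/2 - 1/2000 := by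
  linarith only [mul_nonneg zOmmm s_z3my3_m, mul_nonneg zOmmm yOmmm, mul_nonneg zM2 r1,
    mul_nonneg zOmpp yOmpp, mul_nonneg zM3 s_z3my3_m, mul_nonneg zOmmm yOmpp,
    mul_nonneg zOmpp r0, mul_nonneg zOmpm zM2, mul_nonneg yC2 s_z2my2_m,
    mul_nonneg r1 yOmpp, mul_nonneg zM3 yC2, mul_nonneg r0 r1,
    mul_nonneg yOmpp s_z3my3_m, mul_nonneg zB yB, mul_nonneg yOmpp yB,
    mul_nonneg zM2 s_z2my2_m, mul_nonneg yOmpp yC2, mul_nonneg yC2 s_y2my3_p,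
    mul_nonneg r0 s_z3my3_m, mul_nonneg zOmmp zM3, mul_nonneg zOmmp s_y2my3_p,
    mul_nonneg zOmmm zB, mul_nonneg zOmpm yC2, mul_nonneg zOmmm s_z2my2_m,
    mul_nonneg zM2 yB, mul_nonneg zM2 s_y2my3_p, mul_nonneg zOmmp yOmpp,
    mul_nonneg zOmmp r0, mul_nonneg yOmmm yB, mul_nonneg yOmpm yB,
    mul_nonneg yB s_z3my3_m, mul_nonneg r0 yB, mul_nonneg zOmmm yOmpm,
    mul_nonneg zOmmm r0]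

theorem cls1_9 (z1 z2 z3 r y1 y2 y3 : ℝ)
    (zM3 : 0 ≤ z3 - z1)
    (s_z3my3_m : 0 ≤ -(z3 - y3))
    (zOmmm : 0 ≤ 27/64 + 8/9 * r + z1 + z2 + z3)
    (yOmmm : 0 ≤ 499/576 + y1 + y2 + y3)
    (yOmpp : 0 ≤ 499/576 + y1 - y2 - y3)
    (yB : 0 ≤ -81/1000 - y1 - 7/40 * (y1 + y2 + y3))
    (zOmpm : 0 ≤ 27/64 + 8/9 * r + z1 - z2 + z3)
    (r0 : 0 ≤ r - 1/4)
    (yOmmp : 0 ≤ 499/576 + y1 + y2 - y3)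
    (zM2 : 0 ≤ z2 - z1)
    (s_z2my2_m : 0 ≤ -(z2 - y2))
    (zB : 0 ≤ -81/1000 - z1 - 7/40 * (z1 + z2 + z3))
    (yC3 : 0 ≤ 533/1050 - y3)
    (s_y2my3_m : 0 ≤ -(y2 - y3))
    (r1 : 0 ≤ 1/2 - r)
    (zOmmp : 0 ≤ 27/64 + 8/9 * r + z1 + z2 - z3)
    (zOmpp : 0 ≤ 27/64 + 8/9 * r + z1 - z2 - z3) :
    (z1 - y1) ^ 2 + (z2 - y2) ^ 2 + (z3 - y3) ^ 2 ≤ r + 1/2 - 1/2000 := by
  linarith only [mul_nonneg zM3 s_z3my3_m, mul_nonneg zOmmm yOmmm, mul_nonneg yOmpp yB,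
    mul_nonneg zOmpm r0, mul_nonneg yOmmp yB, mul_nonneg zM2 s_z2my2_m, mul_nonneg zB yB,
    mul_nonneg yC3 s_y2my3_m, mul_nonneg r0 yB, mul_nonneg r0 s_z2my2_m,
    mul_nonneg zOmmm s_z2my2_m, mul_nonneg zM2 yC3, mul_nonneg zOmpm s_y2my3_m,
    mul_nonneg r0 r1, mul_nonneg yC3 s_z3my3_m, mul_nonneg zOmpm yOmpp,
    mul_nonneg zOmpm zM2, mul_nonneg zM3 yB, mul_nonneg zOmmp yC3, mul_nonneg zOmpp r0,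
    mul_nonneg zOmmm yOmpp, mul_nonneg zOmmm zB, mul_nonneg zOmmp zM3,
    mul_nonneg yOmmm yB, mul_nonneg zOmmm r0, mul_nonneg zOmmm s_z3my3_m,
    mul_nonneg yOmpp s_z2my2_m, mul_nonneg zM3 r1, mul_nonneg zOmpp yOmpp,
    mul_nonneg zOmmm yOmmp, mul_nonneg yB s_z2my2_m, mul_nonneg zM3 s_y2my3_m,
    mul_nonneg r1 yOmpp, mul_nonneg yOmpp yC3]

theorem cls1 (z1 z2 z3 r y1 y2 y3 : ℝ)
    (zOmmm : 0 ≤ 27/64 + 8/9 * r + z1 + z2 + z3)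
    (zOpmm : 0 ≤ 27/64 + 8/9 * r - z1 + z2 + z3)
    (zOmpm : 0 ≤ 27/64 + 8/9 * r + z1 - z2 + z3)
    (zOppm : 0 ≤ 27/64 + 8/9 * r - z1 - z2 + z3)
    (zOmmp : 0 ≤ 27/64 + 8/9 * r + z1 + z2 - z3)
    (zOpmp : 0 ≤ 27/64 + 8/9 * r - z1 + z2 - z3)
    (zOmpp : 0 ≤ 27/64 + 8/9 * r + z1 - z2 - z3)
    (zOppp : 0 ≤ 27/64 + 8/9 * r - z1 - z2 - z3)
    (zC1 : 0 ≤ 21/100 + 25/42 * r - z1)
    (zC2 : 0 ≤ 21/100 + 25/42 * r - z2)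
    (zC3 : 0 ≤ 21/100 + 25/42 * r - z3)
    (zM2 : 0 ≤ z2 - z1)
    (zM3 : 0 ≤ z3 - z1)
    (zB : 0 ≤ -81/1000 - z1 - 7/40 * (z1 + z2 + z3))
    (yOmmm : 0 ≤ 499/576 + y1 + y2 + y3)
    (yOpmm : 0 ≤ 499/576 - y1 + y2 + y3)
    (yOmpm : 0 ≤ 499/576 + y1 - y2 + y3)
    (yOppm : 0 ≤ 499/576 - y1 - y2 + y3)
    (yOmmp : 0 ≤ 499/576 + y1 + y2 - y3)
    (yOpmp : 0 ≤ 499/576 - y1 + y2 - y3)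
    (yOmpp : 0 ≤ 499/576 + y1 - y2 - y3)
    (yOppp : 0 ≤ 499/576 - y1 - y2 - y3)
    (yC1 : 0 ≤ 533/1050 - y1)
    (yC2 : 0 ≤ 533/1050 - y2)
    (yC3 : 0 ≤ 533/1050 - y3)
    (yM2 : 0 ≤ y2 - y1)
    (yM3 : 0 ≤ y3 - y1)
    (yB : 0 ≤ -81/1000 - y1 - 7/40 * (y1 + y2 + y3))
    (r0 : 0 ≤ r - 1/4)
    (r1 : 0 ≤ 1/2 - r) :
    (z1 - y1) ^ 2 + (z2 - y2) ^ 2 + (z3 - y3) ^ 2 ≤ r + 1/2 - 1/2000 := by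
  rcases le_total 0 (z3 - y3) with s_z3my3_p | s_z3my3_m
  · rcases le_total 0 (z2 - y2) with s_z2my2_p | s_z2my2_m
    · rcases le_total 0 (z2 - z3) with s_z2mz3_p | s_z2mz3_m
      · exact cls1_0 z1 z2 z3 r y1 y2 y3 zC2 yOmpp r1 yOmmm zOmpp s_z3my3_p zM3 zB yB s_z2mz3_p r0 s_z2my2_p yM2 yOmmp yM3 zOmmm yOmpm zOmmp yOppp zOmpm
      · replace s_z2mz3_m := neg_nonneg.2 s_z2mz3_m
        exact cls1_1 z1 z2 z3 r y1 y2 y3 zOmmm yOmmm r1 s_z2mz3_m zOmmp zB yM3 s_z2my2_p yOmpm zOmpp yOpmp s_z3my3_p zC3 yOmpp r0 zM2 yB yM2 yOmmp zOmpm zM3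
    · replace s_z2my2_m := neg_nonneg.2 s_z2my2_m
      rcases le_total 0 (z1 - y1) with s_z1my1_p | s_z1my1_m
      · rcases le_total 0 (z2 + z3) with s_z2az3_p | s_z2az3_m
        · exact cls1_2 z1 z2 z3 r y1 y2 y3 yOmpm s_z2my2_m zOmmp zC3 yOmmm zM2 yM3 zM3 zB s_z2az3_p s_z1my1_p s_z3my3_p yOmpp r0 r1 yC2 zOmmm
        · replace s_z2az3_m := neg_nonneg.2 s_z2az3_m
          exact cls1_3 z1 z2 z3 r y1 y2 y3 zOppp r0 yOmpm s_z3my3_p zB yC2 zM2 yOpmp zM3 yM2 zOmpm zOmmp r1 zOmmm s_z2az3_m zOpmm yOmmp yOmmm s_z1my1_p yM3 s_z2my2_m yOppp yOmpp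
      · replace s_z1my1_m := neg_nonneg.2 s_z1my1_m
        exact cls1_4 z1 z2 z3 r y1 y2 y3 yC2 s_z1my1_m zOmmp s_z2my2_m zOppm yM3 zOmpp r0 yB zM2 r1 yOmmp zOpmp yOpmm zOmmm yOmpm s_z3my3_p yOpmp yOmmm zC3
  · replace s_z3my3_m := neg_nonneg.2 s_z3my3_m
    rcases le_total 0 (z2 - y2) with s_z2my2_p | s_z2my2_m
    · rcases le_total 0 (z1 - y1) with s_z1my1_p | s_z1my1_m
      · rcases le_total 0 (z2 + z3) with s_z2az3_p | s_z2az3_m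
        · exact cls1_5 z1 z2 z3 r y1 y2 y3 zC2 r0 yOmpp yM2 yC3 zB zM3 zM2 yOmmp s_z2az3_p yOmmm r1 s_z1my1_p s_z2my2_p s_z3my3_m yB zOmpm
        · replace s_z2az3_m := neg_nonneg.2 s_z2az3_m
          exact cls1_6 z1 z2 z3 r y1 y2 y3 zOmmp zM3 yC3 s_z2az3_m zOmmm yOmpm s_z1my1_p zOmpm yOmmp r0 yOmpp s_z2my2_p yOmmm s_z3my3_m yM2 zB yOpmp r1 zOmpp yOppm
      · replace s_z1my1_m := neg_nonneg.2 s_z1my1_m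
        exact cls1_7 z1 z2 z3 r y1 y2 y3 zOpmm zOmpm zM3 yB zOmmm r1 s_z2my2_p r0 zOppm yM2 yOmmp yC3 yOppp s_z1my1_m zOmpp s_z3my3_m yOmmm yOppm yOmpp zC2 zOmmp
    · replace s_z2my2_m := neg_nonneg.2 s_z2my2_m
      rcases le_total 0 (y2 - y3) with s_y2my3_p | s_y2my3_m
      · exact cls1_8 z1 z2 z3 r y1 y2 y3 zOmmm s_z3my3_m yOmmm zM2 r1 zOmpp yOmpp zM3 r0 zOmpm yC2 s_z2my2_m zB yB s_y2my3_p zOmmp yOmpm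
      · replace s_y2my3_m := neg_nonneg.2 s_y2my3_m
        exact cls1_9 z1 z2 z3 r y1 y2 y3 zM3 s_z3my3_m zOmmm yOmmm yOmpp yB zOmpm r0 yOmmp zM2 s_z2my2_m zB yC3 s_y2my3_m r1 zOmmp zOmpp

end Vale.Agent.P052.H638
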