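import Mathlib.Tactic.Linarith
import Mathlib.Data.Real.Basic

set_option autoImplicit false
set_option linter.unusedVariables false

namespace Vale.Agent.P052.H638

theorem cls4_6 (z1 z2 z3 r y1 y2 y3 : ℝ)
    (zOppp : 0 ≤ 27/64 + 8/9 * r - z1 - z2 - z3)
    (r0 : 0 ≤ r - 1/4)
    (zB3 : 0 ≤ 81/1000 + z3 + 7/40 * (z1 + z2 + z3))
    (s_y3_p : 0 ≤ y3)
    (zB2 : 0 ≤ 81/1000 + z2 + 7/40 * (z1 + z2 + z3))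
    (s_z2_m : 0 ≤ -(z2))
    (s_z3_m : 0 ≤ -(z3))
    (zOmpp : 0 ≤ 27/64 + 8/9 * r + z1 - z2 - z3)
    (zC1 : 0 ≤ 21/100 + 25/42 * r - z1)
    (yOmpp : 0 ≤ 499/576 + y1 - y2 - y3)
    (s_y2_p : 0 ≤ y2)
    (yB1 : 0 ≤ 81/1000 + y1 + 7/40 * (y1 + y2 + y3))
    (s_y1_m : 0 ≤ -(y1))
    (yOppp : 0 ≤ 499/576 - y1 - y2 - y3)
    (zOpmm : 0 ≤ 27/64 + 8/9 * r - z1 + z2 + z3)
    (yC2 : 0 ≤ 533/1050 - y2)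
    (yOppm : 0 ≤ 499/576 - y1 - y2 + y3)
    (yOpmp : 0 ≤ 499/576 - y1 + y2 - y3)
    (zB1 : 0 ≤ 81/1000 + z1 + 7/40 * (z1 + z2 + z3))
    (yC3 : 0 ≤ 533/1050 - y3)
    (r1 : 0 ≤ 1/2 - r)
    (yOmmm : 0 ≤ 499/576 + y1 + y2 + y3) :
    (z1 - y1) ^ 2 + (z2 - y2) ^ 2 + (z3 - y3) ^ 2 ≤ r + 1/2 - 1/2000 := by
  linarith only [mul_nonneg zOppp r0, mul_nonneg zB3 s_y3_p, mul_nonneg zB2 s_z2_m,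
    mul_nonneg zB3 s_z3_m, mul_nonneg zOmpp zC1, mul_nonneg yOmpp s_y2_p,
    mul_nonneg yB1 s_y1_m, mul_nonneg yOppp yB1, mul_nonneg yOmpp s_y3_p,
    mul_nonneg zOpmm r0, mul_nonneg yC2 s_z2_m, mul_nonneg yOppm yB1,
    mul_nonneg zC1 yOppm, mul_nonneg r0 yOppm, mul_nonneg r0 yOpmp, mul_nonneg zB3 yC2,
    mul_nonneg r0 yB1, mul_nonneg yOmpp s_z3_m, mul_nonneg yOpmp yB1, mul_nonneg zB2 zB3,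
    mul_nonneg zC1 zB1, mul_nonneg yC2 yC3, mul_nonneg zOpmm yB1, mul_nonneg r0 yOmpp,
    mul_nonneg zB2 s_y2_p, mul_nonneg zB2 yC3, mul_nonneg r0 r1, mul_nonneg yOmpp s_z2_m,
    mul_nonneg zC1 s_y1_m, mul_nonneg zC1 yOmmm, mul_nonneg yC3 s_z3_m,
    mul_nonneg zC1 yOpmp]

theorem cls4_7 (z1 z2 z3 r y1 y2 y3 : ℝ)
    (yC1 : 0 ≤ 533/1050 - y1)
    (s_z2_p : 0 ≤ z2)
    (s_y3_p : 0 ≤ y3)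
    (s_z3_p : 0 ≤ z3)
    (zB1 : 0 ≤ 81/1000 + z1 + 7/40 * (z1 + z2 + z3))
    (yOpmp : 0 ≤ 499/576 - y1 + y2 - y3)
    (zC2 : 0 ≤ 21/100 + 25/42 * r - z2)
    (yC2 : 0 ≤ 533/1050 - y2)
    (r0 : 0 ≤ r - 1/4)
    (r1 : 0 ≤ 1/2 - r)
    (zC3 : 0 ≤ 21/100 + 25/42 * r - z3)
    (yC3 : 0 ≤ 533/1050 - y3)
    (zOmpp : 0 ≤ 27/64 + 8/9 * r + z1 - z2 - z3)
    (yOmpp : 0 ≤ 499/576 + y1 - y2 - y3)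
    (yOppp : 0 ≤ 499/576 - y1 - y2 - y3)
    (yB1 : 0 ≤ 81/1000 + y1 + 7/40 * (y1 + y2 + y3))
    (s_z1_m : 0 ≤ -(z1))
    (s_y2_p : 0 ≤ y2)
    (yOppm : 0 ≤ 499/576 - y1 - y2 + y3) :
    (z1 - y1) ^ 2 + (z2 - y2) ^ 2 + (z3 - y3) ^ 2 ≤ r + 1/2 - 1/2000 := by
  linarith only [mul_nonneg yC1 s_z2_p, mul_nonneg s_y3_p s_z3_p, mul_nonneg zB1 s_z3_p,
    mul_nonneg yOpmp s_y3_p, mul_nonneg zC2 yC2, mul_nonneg r0 yC1, mul_nonneg zB1 r1,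
    mul_nonneg zC3 s_z3_p, mul_nonneg r0 s_y3_p, mul_nonneg yC3 s_y3_p,
    mul_nonneg zOmpp r0, mul_nonneg yC1 s_z3_p, mul_nonneg yOmpp yC1,
    mul_nonneg zB1 s_z2_p, mul_nonneg zC2 s_z2_p, mul_nonneg yOppp yB1,
    mul_nonneg yOppp s_y3_p, mul_nonneg zOmpp s_z1_m, mul_nonneg zOmpp yOmpp,
    mul_nonneg zC3 s_y2_p, mul_nonneg zB1 yB1, mul_nonneg r0 s_y2_p,
    mul_nonneg yC1 s_z1_m, mul_nonneg yOppp s_z1_m, mul_nonneg yC2 s_y2_p,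
    mul_nonneg zB1 s_z1_m, mul_nonneg zB1 yOmpp, mul_nonneg s_y2_p s_z2_p,
    mul_nonneg zC3 yC3, mul_nonneg zC2 s_y3_p, mul_nonneg yOppm s_y2_p, mul_nonneg r0 r1]

theorem cls4_8 (z1 z2 z3 r y1 y2 y3 : ℝ)
    (zC2 : 0 ≤ 21/100 + 25/42 * r - z2)
    (yC2 : 0 ≤ 533/1050 - y2)
    (zB1 : 0 ≤ 81/1000 + z1 + 7/40 * (z1 + z2 + z3))
    (zB3 : 0 ≤ 81/1000 + z3 + 7/40 * (z1 + z2 + z3))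
    (s_z3_m : 0 ≤ -(z3))
    (yC3 : 0 ≤ 533/1050 - y3)
    (s_y3_p : 0 ≤ y3)
    (s_y2_p : 0 ≤ y2)
    (yOpmp : 0 ≤ 499/576 - y1 + y2 - y3)
    (r0 : 0 ≤ r - 1/4)
    (r1 : 0 ≤ 1/2 - r)
    (yC1 : 0 ≤ 533/1050 - y1)
    (s_z2_p : 0 ≤ z2)
    (yB2 : 0 ≤ 81/1000 + y2 + 7/40 * (y1 + y2 + y3))
    (yOppp : 0 ≤ 499/576 - y1 - y2 - y3)
    (yB1 : 0 ≤ 81/1000 + y1 + 7/40 * (y1 + y2 + y3))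
    (zOmpp : 0 ≤ 27/64 + 8/9 * r + z1 - z2 - z3)
    (s_z1_m : 0 ≤ -(z1))
    (yOmpp : 0 ≤ 499/576 + y1 - y2 - y3)
    (zOppm : 0 ≤ 27/64 + 8/9 * r - z1 - z2 + z3)
    (zOmpm : 0 ≤ 27/64 + 8/9 * r + z1 - z2 + z3) :
    (z1 - y1) ^ 2 + (z2 - y2) ^ 2 + (z3 - y3) ^ 2 ≤ r + 1/2 - 1/2000 := by
  linarith only [mul_nonneg zC2 yC2, mul_nonneg zB1 zB3, mul_nonneg zB3 s_z3_m, mul_nonneg yC3 s_y3_p,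
    mul_nonneg yC2 s_y2_p, mul_nonneg yOpmp s_y3_p, mul_nonneg zB3 s_y3_p,
    mul_nonneg zB1 yC3, mul_nonneg r0 r1, mul_nonneg yC1 yC3, mul_nonneg zC2 s_z2_p,
    mul_nonneg r0 yB2, mul_nonneg yOppp yB1, mul_nonneg zC2 s_y3_p, mul_nonneg zOmpp r0,
    mul_nonneg yOppp s_z1_m, mul_nonneg zB1 yOmpp, mul_nonneg zOppm r0,
    mul_nonneg r0 yOpmp, mul_nonneg s_y2_p s_z2_p, mul_nonneg yOpmp yC2,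
    mul_nonneg zOmpm r0, mul_nonneg yOpmp s_z3_m, mul_nonneg yOpmp s_z1_m,
    mul_nonneg zB1 s_z1_m, mul_nonneg yOmpp yC1, mul_nonneg yOpmp s_z2_p,
    mul_nonneg zC2 yB1, mul_nonneg zC2 s_z1_m, mul_nonneg yOpmp yB1, mul_nonneg zB3 yC1,
    mul_nonneg zC2 s_z3_m, mul_nonneg yOppp s_y3_p, mul_nonneg yOppp s_z3_m]

theorem cls4_9 (z1 z2 z3 r y1 y2 y3 : ℝ)
    (r0 : 0 ≤ r - 1/4)
    (yOmpp : 0 ≤ 499/576 + y1 - y2 - y3)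
    (yOppm : 0 ≤ 499/576 - y1 - y2 + y3)
    (s_y2_p : 0 ≤ y2)
    (zB2 : 0 ≤ 81/1000 + z2 + 7/40 * (z1 + z2 + z3))
    (yOppp : 0 ≤ 499/576 - y1 - y2 - y3)
    (s_z2_m : 0 ≤ -(z2))
    (zC3 : 0 ≤ 21/100 + 25/42 * r - z3)
    (zB3 : 0 ≤ 81/1000 + z3 + 7/40 * (z1 + z2 + z3))
    (zOmpp : 0 ≤ 27/64 + 8/9 * r + z1 - z2 - z3)
    (yC1 : 0 ≤ 533/1050 - y1)
    (yC2 : 0 ≤ 533/1050 - y2)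
    (yC3 : 0 ≤ 533/1050 - y3)
    (s_y1_p : 0 ≤ y1)
    (s_z1_m : 0 ≤ -(z1))
    (r1 : 0 ≤ 1/2 - r)
    (zB1 : 0 ≤ 81/1000 + z1 + 7/40 * (z1 + z2 + z3))
    (zOpmp : 0 ≤ 27/64 + 8/9 * r - z1 + z2 - z3)
    (s_y3_p : 0 ≤ y3)
    (yB3 : 0 ≤ 81/1000 + y3 + 7/40 * (y1 + y2 + y3))
    (zOmmp : 0 ≤ 27/64 + 8/9 * r + z1 + z2 - z3)
    (yOpmp : 0 ≤ 499/576 - y1 + y2 - y3) :
    (z1 - y1) ^ 2 + (z2 - y2) ^ 2 + (z3 - y3) ^ 2 ≤ r + 1/2 - 1/2000 := by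
  linarith only [mul_nonneg r0 yOmpp, mul_nonneg yOppm s_y2_p, mul_nonneg zB2 s_y2_p,
    mul_nonneg yOppp s_z2_m, mul_nonneg zC3 zB3, mul_nonneg zOmpp r0,
    mul_nonneg zB3 yOppp, mul_nonneg yC1 yC2, mul_nonneg yOppp yC3,
    mul_nonneg yOppm s_y1_p, mul_nonneg yOppp s_z1_m, mul_nonneg r0 r1,
    mul_nonneg zB1 s_y1_p, mul_nonneg zB2 s_z2_m, mul_nonneg yC1 s_y1_p,
    mul_nonneg r0 yOppm, mul_nonneg yOppm s_z2_m, mul_nonneg zC3 s_z1_m,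
    mul_nonneg zC3 yC3, mul_nonneg zB1 s_z1_m, mul_nonneg zC3 s_z2_m, mul_nonneg zB1 yC2,
    mul_nonneg zOpmp r0, mul_nonneg zB3 s_y3_p, mul_nonneg yOppp s_y2_p,
    mul_nonneg zB1 zB2, mul_nonneg r0 yB3, mul_nonneg zOmmp r0, mul_nonneg yOppm s_z1_m,
    mul_nonneg yOppp s_y1_p, mul_nonneg zB2 yC1, mul_nonneg yC2 s_y2_p,
    mul_nonneg yC3 s_y3_p, mul_nonneg r0 yOpmp]

theorem cls4_10 (z1 z2 z3 r y1 y2 y3 : ℝ)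
    (s_z1_m : 0 ≤ -(z1))
    (s_y1_m : 0 ≤ -(y1))
    (zC3 : 0 ≤ 21/100 + 25/42 * r - z3)
    (yC3 : 0 ≤ 533/1050 - y3)
    (r0 : 0 ≤ r - 1/4)
    (zOmpp : 0 ≤ 27/64 + 8/9 * r + z1 - z2 - z3)
    (yOmpp : 0 ≤ 499/576 + y1 - y2 - y3)
    (s_y3_p : 0 ≤ y3)
    (s_y2_p : 0 ≤ y2)
    (zB2 : 0 ≤ 81/1000 + z2 + 7/40 * (z1 + z2 + z3))
    (zB3 : 0 ≤ 81/1000 + z3 + 7/40 * (z1 + z2 + z3))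
    (yC2 : 0 ≤ 533/1050 - y2)
    (s_z2_m : 0 ≤ -(z2))
    (zB1 : 0 ≤ 81/1000 + z1 + 7/40 * (z1 + z2 + z3))
    (yB1 : 0 ≤ 81/1000 + y1 + 7/40 * (y1 + y2 + y3))
    (yOppp : 0 ≤ 499/576 - y1 - y2 - y3)
    (yOpmm : 0 ≤ 499/576 - y1 + y2 + y3)
    (zOppp : 0 ≤ 27/64 + 8/9 * r - z1 - z2 - z3)
    (yB3 : 0 ≤ 81/1000 + y3 + 7/40 * (y1 + y2 + y3))
    (yOmmp : 0 ≤ 499/576 + y1 + y2 - y3)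
    (r1 : 0 ≤ 1/2 - r)
    (yB2 : 0 ≤ 81/1000 + y2 + 7/40 * (y1 + y2 + y3)) :
    (z1 - y1) ^ 2 + (z2 - y2) ^ 2 + (z3 - y3) ^ 2 ≤ r + 1/2 - 1/2000 := by
  linarith only [mul_nonneg s_z1_m s_y1_m, mul_nonneg zC3 yC3, mul_nonneg zC3 r0, mul_nonneg zOmpp r0,
    mul_nonneg yOmpp s_y3_p, mul_nonneg s_y2_p s_z1_m, mul_nonneg zB2 zB3,
    mul_nonneg yC2 s_z2_m, mul_nonneg s_y3_p s_z1_m, mul_nonneg zB1 s_z1_m,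
    mul_nonneg yOmpp yB1, mul_nonneg zC3 yOmpp, mul_nonneg zC3 zB3,
    mul_nonneg yOppp s_y3_p, mul_nonneg yC2 yC3, mul_nonneg r0 yOpmm, mul_nonneg zB1 zB2,
    mul_nonneg zC3 yOppp, mul_nonneg zOppp r0, mul_nonneg zC3 s_z1_m,
    mul_nonneg zB2 s_z2_m, mul_nonneg r0 yB3, mul_nonneg zB3 s_y3_p, mul_nonneg zB2 yC3,
    mul_nonneg yC3 s_y3_p, mul_nonneg r0 yOmmp, mul_nonneg yB1 s_y1_m, mul_nonneg r0 r1,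
    mul_nonneg yOmpp s_y2_p, mul_nonneg yC2 s_y2_p, mul_nonneg yC2 s_y1_m,
    mul_nonneg r0 yB2, mul_nonneg zB2 s_y2_p, mul_nonneg zB3 yC2]

theorem cls4_11 (z1 z2 z3 r y1 y2 y3 : ℝ)
    (zB2 : 0 ≤ 81/1000 + z2 + 7/40 * (z1 + z2 + z3))
    (yB2 : 0 ≤ 81/1000 + y2 + 7/40 * (y1 + y2 + y3))
    (yC3 : 0 ≤ 533/1050 - y3)
    (s_y3_p : 0 ≤ y3)
    (zOmpp : 0 ≤ 27/64 + 8/9 * r + z1 - z2 - z3)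
    (s_z3_p : 0 ≤ z3)
    (zC2 : 0 ≤ 21/100 + 25/42 * r - z2)
    (s_y1_p : 0 ≤ y1)
    (s_y2_m : 0 ≤ -(y2))
    (zC1 : 0 ≤ 21/100 + 25/42 * r - z1)
    (yC1 : 0 ≤ 533/1050 - y1)
    (zC3 : 0 ≤ 21/100 + 25/42 * r - z3)
    (zOppp : 0 ≤ 27/64 + 8/9 * r - z1 - z2 - z3)
    (r0 : 0 ≤ r - 1/4)
    (yOpmp : 0 ≤ 499/576 - y1 + y2 - y3)
    (r1 : 0 ≤ 1/2 - r)
    (s_z1_p : 0 ≤ z1)
    (zOpmp : 0 ≤ 27/64 + 8/9 * r - z1 + z2 - z3)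
    (zOppm : 0 ≤ 27/64 + 8/9 * r - z1 - z2 + z3) :
    (z1 - y1) ^ 2 + (z2 - y2) ^ 2 + (z3 - y3) ^ 2 ≤ r + 1/2 - 1/2000 := by
  linarith only [mul_nonneg zB2 yB2, mul_nonneg yC3 s_y3_p, mul_nonneg zOmpp s_z3_p,
    mul_nonneg zC2 s_y1_p, mul_nonneg yB2 s_y2_m, mul_nonneg zC1 yC1,
    mul_nonneg zC3 s_z3_p, mul_nonneg zC3 yC3, mul_nonneg zOppp r0,
    mul_nonneg yC1 s_z3_p, mul_nonneg s_y3_p s_z3_p, mul_nonneg zOppp s_z3_p,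
    mul_nonneg zOppp zB2, mul_nonneg zOppp yOpmp, mul_nonneg r0 r1, mul_nonneg yOpmp yB2,
    mul_nonneg s_z1_p s_y1_p, mul_nonneg yOpmp s_y3_p, mul_nonneg r0 yB2,
    mul_nonneg yOpmp s_y1_p, mul_nonneg zC2 s_y3_p, mul_nonneg yC3 s_z1_p,
    mul_nonneg zC2 r1, mul_nonneg zOpmp zC2, mul_nonneg yC1 s_y1_p, mul_nonneg r1 yOpmp,
    mul_nonneg zOpmp yOpmp, mul_nonneg yC1 yC3, mul_nonneg zOppm s_z1_p,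
    mul_nonneg zC1 s_z1_p, mul_nonneg zC2 s_y2_m]

theorem cls4_12 (z1 z2 z3 r y1 y2 y3 : ℝ)
    (yB2 : 0 ≤ 81/1000 + y2 + 7/40 * (y1 + y2 + y3))
    (s_y2_m : 0 ≤ -(y2))
    (zB3 : 0 ≤ 81/1000 + z3 + 7/40 * (z1 + z2 + z3))
    (s_y3_p : 0 ≤ y3)
    (zB2 : 0 ≤ 81/1000 + z2 + 7/40 * (z1 + z2 + z3))
    (r0 : 0 ≤ r - 1/4)
    (s_z3_m : 0 ≤ -(z3))
    (yC3 : 0 ≤ 533/1050 - y3)
    (s_z1_p : 0 ≤ z1)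
    (r1 : 0 ≤ 1/2 - r)
    (s_y1_p : 0 ≤ y1)
    (zC1 : 0 ≤ 21/100 + 25/42 * r - z1)
    (yOpmp : 0 ≤ 499/576 - y1 + y2 - y3)
    (zOppm : 0 ≤ 27/64 + 8/9 * r - z1 - z2 + z3)
    (zC2 : 0 ≤ 21/100 + 25/42 * r - z2)
    (yC1 : 0 ≤ 533/1050 - y1) :
    (z1 - y1) ^ 2 + (z2 - y2) ^ 2 + (z3 - y3) ^ 2 ≤ r + 1/2 - 1/2000 := by
  linarith only [mul_nonneg yB2 s_y2_m, mul_nonneg zB3 s_y3_p, mul_nonneg zB2 r0,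
    mul_nonneg zB3 s_z3_m, mul_nonneg yC3 s_z3_m, mul_nonneg yC3 s_z1_p,
    mul_nonneg zB3 r1, mul_nonneg s_z1_p s_y1_p, mul_nonneg zC1 zB3,
    mul_nonneg r0 s_y1_p, mul_nonneg yOpmp s_y1_p, mul_nonneg zC1 r0, mul_nonneg zB2 yB2,
    mul_nonneg zOppm s_z1_p, mul_nonneg zC2 zB2, mul_nonneg zB2 zB3,
    mul_nonneg yB2 s_y3_p, mul_nonneg yB2 s_z1_p, mul_nonneg zC1 zC2, mul_nonneg zB3 yB2,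
    mul_nonneg zC2 s_y2_m, mul_nonneg r0 r1, mul_nonneg zB2 yOpmp, mul_nonneg r0 yB2,
    mul_nonneg zC1 yOpmp, mul_nonneg zOppm s_y2_m, mul_nonneg yC1 yB2,
    mul_nonneg zOppm s_y3_p, mul_nonneg yC3 s_y3_p, mul_nonneg zC2 s_y1_p,
    mul_nonneg zOppm yC1, mul_nonneg zOppm s_z3_m, mul_nonneg r1 yOpmp,
    mul_nonneg zC2 r1, mul_nonneg yC1 yC3]

end Vale.Agent.P052.H638
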