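import Mathlib.Tactic.Linarith
import Mathlib.Data.Real.Basic

set_option autoImplicit false
set_option linter.unusedVariables false

namespace Vale.Agent.P052.H638

theorem cls4_20 (z1 z2 z3 r y1 y2 y3 : ℝ)
    (zC2 : 0 ≤ 21/100 + 25/42 * r - z2)
    (zB2 : 0 ≤ 81/1000 + z2 + 7/40 * (z1 + z2 + z3))
    (zC1 : 0 ≤ 21/100 + 25/42 * r - z1)
    (yB3 : 0 ≤ 81/1000 + y3 + 7/40 * (y1 + y2 + y3))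
    (zC3 : 0 ≤ 21/100 + 25/42 * r - z3)
    (zB3 : 0 ≤ 81/1000 + z3 + 7/40 * (z1 + z2 + z3))
    (r1 : 0 ≤ 1/2 - r)
    (yC2 : 0 ≤ 533/1050 - y2)
    (yB1 : 0 ≤ 81/1000 + y1 + 7/40 * (y1 + y2 + y3))
    (zOpmp : 0 ≤ 27/64 + 8/9 * r - z1 + z2 - z3)
    (s_z1_p : 0 ≤ z1)
    (s_y2_p : 0 ≤ y2)
    (zOmpp : 0 ≤ 27/64 + 8/9 * r + z1 - z2 - z3)
    (zOppp : 0 ≤ 27/64 + 8/9 * r - z1 - z2 - z3)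
    (s_y3_m : 0 ≤ -(y3))
    (r0 : 0 ≤ r - 1/4)
    (s_y1_m : 0 ≤ -(y1))
    (zOppm : 0 ≤ 27/64 + 8/9 * r - z1 - z2 + z3) :
    (z1 - y1) ^ 2 + (z2 - y2) ^ 2 + (z3 - y3) ^ 2 ≤ r + 1/2 - 1/2000 := by
  linarith only [mul_nonneg zC2 zB2, mul_nonneg zC1 yB3, mul_nonneg zC3 zB3, mul_nonneg r1 yC2,
    mul_nonneg zC3 yB1, mul_nonneg zOpmp s_z1_p, mul_nonneg zB2 s_y2_p,
    mul_nonneg zC1 zC3, mul_nonneg zOmpp zB2, mul_nonneg zOpmp r1, mul_nonneg zOpmp zC2,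
    mul_nonneg zOppp zB2, mul_nonneg zOpmp s_y3_m, mul_nonneg r0 r1,
    mul_nonneg r0 s_z1_p, mul_nonneg yB1 s_y1_m, mul_nonneg zC2 yC2,
    mul_nonneg r0 s_y1_m, mul_nonneg yB1 yB3, mul_nonneg yC2 s_y1_m,
    mul_nonneg zC1 s_z1_p, mul_nonneg zOpmp zB3, mul_nonneg r1 yB3,
    mul_nonneg zC1 s_y1_m, mul_nonneg zOpmp s_y2_p, mul_nonneg zB2 r1,
    mul_nonneg zOppm yC2, mul_nonneg yB1 s_z1_p, mul_nonneg zB3 yB3, mul_nonneg zB2 yB3,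
    mul_nonneg r0 s_y3_m, mul_nonneg yC2 s_y3_m, mul_nonneg yC2 s_y2_p,
    mul_nonneg yB3 s_y3_m, mul_nonneg zOpmp s_y1_m]

theorem cls4_21 (z1 z2 z3 r y1 y2 y3 : ℝ)
    (zB3 : 0 ≤ 81/1000 + z3 + 7/40 * (z1 + z2 + z3))
    (yOppm : 0 ≤ 499/576 - y1 - y2 + y3)
    (yC2 : 0 ≤ 533/1050 - y2)
    (yB3 : 0 ≤ 81/1000 + y3 + 7/40 * (y1 + y2 + y3))
    (zC2 : 0 ≤ 21/100 + 25/42 * r - z2)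
    (r0 : 0 ≤ r - 1/4)
    (r1 : 0 ≤ 1/2 - r)
    (zOmpp : 0 ≤ 27/64 + 8/9 * r + z1 - z2 - z3)
    (s_y2_p : 0 ≤ y2)
    (s_z2_p : 0 ≤ z2)
    (zC3 : 0 ≤ 21/100 + 25/42 * r - z3)
    (yC1 : 0 ≤ 533/1050 - y1)
    (s_z1_m : 0 ≤ -(z1))
    (zB1 : 0 ≤ 81/1000 + z1 + 7/40 * (z1 + z2 + z3))
    (s_y1_p : 0 ≤ y1)
    (s_y3_m : 0 ≤ -(y3)) :
    (z1 - y1) ^ 2 + (z2 - y2) ^ 2 + (z3 - y3) ^ 2 ≤ r + 1/2 - 1/2000 := by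
  linarith only [mul_nonneg zB3 yOppm, mul_nonneg yC2 yB3, mul_nonneg zC2 r0, mul_nonneg r1 yOppm,
    mul_nonneg zC2 yOppm, mul_nonneg zOmpp yC2, mul_nonneg s_y2_p s_z2_p,
    mul_nonneg zC3 zB3, mul_nonneg yC1 s_z1_m, mul_nonneg zB1 zB3, mul_nonneg yB3 s_y1_p,
    mul_nonneg zOmpp s_y1_p, mul_nonneg yC1 s_y1_p, mul_nonneg r0 s_y2_p,
    mul_nonneg zC3 r1, mul_nonneg zOmpp s_y3_m, mul_nonneg yC1 yC2, mul_nonneg zC2 zC3,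
    mul_nonneg zOmpp s_z1_m, mul_nonneg r0 r1, mul_nonneg zB1 s_y1_p,
    mul_nonneg zB1 s_z1_m, mul_nonneg r0 yB3, mul_nonneg zB1 r1, mul_nonneg zC3 s_y2_p,
    mul_nonneg zC3 s_y3_m, mul_nonneg zB3 r0, mul_nonneg yB3 s_z2_p,
    mul_nonneg yC1 s_z2_p, mul_nonneg yOppm s_y2_p, mul_nonneg zB3 yB3,
    mul_nonneg zOmpp s_z2_p, mul_nonneg zB1 yB3, mul_nonneg yB3 s_y3_m,
    mul_nonneg zC2 zB1]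

theorem cls4_22 (z1 z2 z3 r y1 y2 y3 : ℝ)
    (yOmpm : 0 ≤ 499/576 + y1 - y2 + y3)
    (s_y1_m : 0 ≤ -(y1))
    (yC2 : 0 ≤ 533/1050 - y2)
    (s_y3_m : 0 ≤ -(y3))
    (r0 : 0 ≤ r - 1/4)
    (r1 : 0 ≤ 1/2 - r)
    (zOmpp : 0 ≤ 27/64 + 8/9 * r + z1 - z2 - z3)
    (s_z2_p : 0 ≤ z2)
    (zC3 : 0 ≤ 21/100 + 25/42 * r - z3)
    (yOmmm : 0 ≤ 499/576 + y1 + y2 + y3)
    (yB3 : 0 ≤ 81/1000 + y3 + 7/40 * (y1 + y2 + y3))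
    (yOpmm : 0 ≤ 499/576 - y1 + y2 + y3)
    (zOmmm : 0 ≤ 27/64 + 8/9 * r + z1 + z2 + z3)
    (zOppp : 0 ≤ 27/64 + 8/9 * r - z1 - z2 - z3)
    (yB1 : 0 ≤ 81/1000 + y1 + 7/40 * (y1 + y2 + y3))
    (zOpmm : 0 ≤ 27/64 + 8/9 * r - z1 + z2 + z3)
    (zB1 : 0 ≤ 81/1000 + z1 + 7/40 * (z1 + z2 + z3))
    (yB2 : 0 ≤ 81/1000 + y2 + 7/40 * (y1 + y2 + y3))
    (zC2 : 0 ≤ 21/100 + 25/42 * r - z2)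
    (s_z1_m : 0 ≤ -(z1))
    (yOmpp : 0 ≤ 499/576 + y1 - y2 - y3)
    (zB2 : 0 ≤ 81/1000 + z2 + 7/40 * (z1 + z2 + z3))
    (zOpmp : 0 ≤ 27/64 + 8/9 * r - z1 + z2 - z3)
    (yOppm : 0 ≤ 499/576 - y1 - y2 + y3)
    (yOpmp : 0 ≤ 499/576 - y1 + y2 - y3)
    (zOppm : 0 ≤ 27/64 + 8/9 * r - z1 - z2 + z3)
    (yOmmp : 0 ≤ 499/576 + y1 + y2 - y3)
    (zB3 : 0 ≤ 81/1000 + z3 + 7/40 * (z1 + z2 + z3)) :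
    (z1 - y1) ^ 2 + (z2 - y2) ^ 2 + (z3 - y3) ^ 2 ≤ r + 1/2 - 1/2000 := by
  linarith only [mul_nonneg yOmpm s_y1_m, mul_nonneg yC2 s_y3_m, mul_nonneg r0 r1,
    mul_nonneg zOmpp r0, mul_nonneg r1 s_z2_p, mul_nonneg zC3 s_y3_m,
    mul_nonneg yOmmm yB3, mul_nonneg yOpmm s_z2_p, mul_nonneg zOmmm yB3,
    mul_nonneg zOppp r0, mul_nonneg yB1 s_y1_m, mul_nonneg zOpmm zB1,
    mul_nonneg yB2 s_z2_p, mul_nonneg zC2 s_z2_p, mul_nonneg zB1 yB1,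
    mul_nonneg s_z1_m s_y1_m, mul_nonneg zOppp yC2, mul_nonneg yOmpp s_y1_m,
    mul_nonneg zB1 zB2, mul_nonneg r0 yOmmm, mul_nonneg zB1 s_z1_m, mul_nonneg r1 yC2,
    mul_nonneg zOpmp zC3, mul_nonneg zOmpp yC2, mul_nonneg zC2 yC2, mul_nonneg r0 yOppm,
    mul_nonneg zOmpp yB3, mul_nonneg yOpmp yC2, mul_nonneg zOppm yB3,
    mul_nonneg zOpmp s_y1_m, mul_nonneg zOppm zC3, mul_nonneg zC3 yOmmp,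
    mul_nonneg zC3 zB3, mul_nonneg yB3 s_y3_m, mul_nonneg yC2 yB2]

theorem cls4_23 (z1 z2 z3 r y1 y2 y3 : ℝ)
    (zOppm : 0 ≤ 27/64 + 8/9 * r - z1 - z2 + z3)
    (zC3 : 0 ≤ 21/100 + 25/42 * r - z3)
    (yOppm : 0 ≤ 499/576 - y1 - y2 + y3)
    (s_z2_m : 0 ≤ -(z2))
    (zOpmp : 0 ≤ 27/64 + 8/9 * r - z1 + z2 - z3)
    (r0 : 0 ≤ r - 1/4)
    (zB3 : 0 ≤ 81/1000 + z3 + 7/40 * (z1 + z2 + z3))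
    (zOpmm : 0 ≤ 27/64 + 8/9 * r - z1 + z2 + z3)
    (yB3 : 0 ≤ 81/1000 + y3 + 7/40 * (y1 + y2 + y3))
    (yC2 : 0 ≤ 533/1050 - y2)
    (yOppp : 0 ≤ 499/576 - y1 - y2 - y3)
    (zB2 : 0 ≤ 81/1000 + z2 + 7/40 * (z1 + z2 + z3))
    (s_y2_p : 0 ≤ y2)
    (yOmmp : 0 ≤ 499/576 + y1 + y2 - y3)
    (zB1 : 0 ≤ 81/1000 + z1 + 7/40 * (z1 + z2 + z3))
    (s_y3_m : 0 ≤ -(y3))
    (zOmmp : 0 ≤ 27/64 + 8/9 * r + z1 + z2 - z3)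
    (yOpmp : 0 ≤ 499/576 - y1 + y2 - y3)
    (zOmpm : 0 ≤ 27/64 + 8/9 * r + z1 - z2 + z3)
    (yOmpp : 0 ≤ 499/576 + y1 - y2 - y3)
    (zOmpp : 0 ≤ 27/64 + 8/9 * r + z1 - z2 - z3)
    (s_y1_p : 0 ≤ y1)
    (yC1 : 0 ≤ 533/1050 - y1)
    (r1 : 0 ≤ 1/2 - r)
    (s_z1_m : 0 ≤ -(z1)) :
    (z1 - y1) ^ 2 + (z2 - y2) ^ 2 + (z3 - y3) ^ 2 ≤ r + 1/2 - 1/2000 := by
  linarith only [mul_nonneg zOppm zC3, mul_nonneg yOppm s_z2_m, mul_nonneg zOpmp r0,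
    mul_nonneg zC3 zB3, mul_nonneg zOpmm yB3, mul_nonneg yC2 s_z2_m,
    mul_nonneg zC3 yOppp, mul_nonneg zB2 s_y2_p, mul_nonneg zC3 yOmmp,
    mul_nonneg zB1 zB2, mul_nonneg zC3 s_y3_m, mul_nonneg r0 yOppm, mul_nonneg zOmmp yB3,
    mul_nonneg r0 yOpmp, mul_nonneg zOmpm yB3, mul_nonneg zB2 s_z2_m,
    mul_nonneg r0 yOmpp, mul_nonneg yOppm yB3, mul_nonneg zOmmp r0,
    mul_nonneg yOppm s_y2_p, mul_nonneg zOmpp r0, mul_nonneg zB1 s_y1_p,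
    mul_nonneg yOppm s_y1_p, mul_nonneg zB2 yC1, mul_nonneg r0 r1, mul_nonneg yC1 s_z1_m,
    mul_nonneg zB1 s_z1_m, mul_nonneg yC1 yC2, mul_nonneg zB1 yC2, mul_nonneg r0 yB3,
    mul_nonneg yB3 s_y3_m, mul_nonneg yOppm s_z1_m]

theorem cls4_24 (z1 z2 z3 r y1 y2 y3 : ℝ)
    (zOppm : 0 ≤ 27/64 + 8/9 * r - z1 - z2 + z3)
    (zC3 : 0 ≤ 21/100 + 25/42 * r - z3)
    (yC2 : 0 ≤ 533/1050 - y2)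
    (s_z2_m : 0 ≤ -(z2))
    (zB2 : 0 ≤ 81/1000 + z2 + 7/40 * (z1 + z2 + z3))
    (zOmpp : 0 ≤ 27/64 + 8/9 * r + z1 - z2 - z3)
    (r0 : 0 ≤ r - 1/4)
    (zOmmm : 0 ≤ 27/64 + 8/9 * r + z1 + z2 + z3)
    (yB2 : 0 ≤ 81/1000 + y2 + 7/40 * (y1 + y2 + y3))
    (zB1 : 0 ≤ 81/1000 + z1 + 7/40 * (z1 + z2 + z3))
    (s_z1_m : 0 ≤ -(z1))
    (s_y3_m : 0 ≤ -(y3))
    (zB3 : 0 ≤ 81/1000 + z3 + 7/40 * (z1 + z2 + z3))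
    (yOpmm : 0 ≤ 499/576 - y1 + y2 + y3)
    (yB1 : 0 ≤ 81/1000 + y1 + 7/40 * (y1 + y2 + y3))
    (s_y1_m : 0 ≤ -(y1))
    (yOmmm : 0 ≤ 499/576 + y1 + y2 + y3)
    (zOppp : 0 ≤ 27/64 + 8/9 * r - z1 - z2 - z3)
    (r1 : 0 ≤ 1/2 - r)
    (yB3 : 0 ≤ 81/1000 + y3 + 7/40 * (y1 + y2 + y3))
    (yOpmp : 0 ≤ 499/576 - y1 + y2 - y3)
    (yOppm : 0 ≤ 499/576 - y1 - y2 + y3)
    (yOmmp : 0 ≤ 499/576 + y1 + y2 - y3)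
    (zOmpm : 0 ≤ 27/64 + 8/9 * r + z1 - z2 + z3)
    (yOmpp : 0 ≤ 499/576 + y1 - y2 - y3)
    (zOpmp : 0 ≤ 27/64 + 8/9 * r - z1 + z2 - z3) :
    (z1 - y1) ^ 2 + (z2 - y2) ^ 2 + (z3 - y3) ^ 2 ≤ r + 1/2 - 1/2000 := by
  linarith only [mul_nonneg zOppm zC3, mul_nonneg yC2 s_z2_m, mul_nonneg zOppm zB2,
    mul_nonneg zOmpp r0, mul_nonneg zOmmm yC2, mul_nonneg yC2 yB2, mul_nonneg zB1 s_z1_m,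
    mul_nonneg zC3 s_y3_m, mul_nonneg zC3 zB3, mul_nonneg yOpmm yC2,
    mul_nonneg yB1 s_y1_m, mul_nonneg zC3 yOmmm, mul_nonneg zOppp r0, mul_nonneg r0 r1,
    mul_nonneg zOmpp zB2, mul_nonneg r0 yB3, mul_nonneg zOppm r0, mul_nonneg zB2 yOmmm,
    mul_nonneg yOpmp s_z1_m, mul_nonneg zB2 yOppm, mul_nonneg s_z1_m s_y1_m,
    mul_nonneg zB2 r1, mul_nonneg yOmmp yC2, mul_nonneg zOmpm yB3, mul_nonneg zOmpp zC3,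
    mul_nonneg yOppm s_z1_m, mul_nonneg zOmmm yB3, mul_nonneg r0 s_y1_m,
    mul_nonneg zOppm yB3, mul_nonneg zOmmm zB2, mul_nonneg yB1 yB3, mul_nonneg yOpmp yC2,
    mul_nonneg zC3 yOmpp, mul_nonneg yB3 s_y3_m, mul_nonneg zOpmp s_y1_m]

theorem cls4_25 (z1 z2 z3 r y1 y2 y3 : ℝ)
    (zOppp : 0 ≤ 27/64 + 8/9 * r - z1 - z2 - z3)
    (zB2 : 0 ≤ 81/1000 + z2 + 7/40 * (z1 + z2 + z3))
    (zB3 : 0 ≤ 81/1000 + z3 + 7/40 * (z1 + z2 + z3))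
    (yC1 : 0 ≤ 533/1050 - y1)
    (yB1 : 0 ≤ 81/1000 + y1 + 7/40 * (y1 + y2 + y3))
    (s_z1_p : 0 ≤ z1)
    (yB2 : 0 ≤ 81/1000 + y2 + 7/40 * (y1 + y2 + y3))
    (s_y2_m : 0 ≤ -(y2))
    (yB3 : 0 ≤ 81/1000 + y3 + 7/40 * (y1 + y2 + y3))
    (zC2 : 0 ≤ 21/100 + 25/42 * r - z2)
    (zC3 : 0 ≤ 21/100 + 25/42 * r - z3)
    (r1 : 0 ≤ 1/2 - r)
    (zOmpp : 0 ≤ 27/64 + 8/9 * r + z1 - z2 - z3)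
    (s_y3_m : 0 ≤ -(y3))
    (zOppm : 0 ≤ 27/64 + 8/9 * r - z1 - z2 + z3)
    (yOmpp : 0 ≤ 499/576 + y1 - y2 - y3)
    (zOpmp : 0 ≤ 27/64 + 8/9 * r - z1 + z2 - z3)
    (zC1 : 0 ≤ 21/100 + 25/42 * r - z1)
    (r0 : 0 ≤ r - 1/4) :
    (z1 - y1) ^ 2 + (z2 - y2) ^ 2 + (z3 - y3) ^ 2 ≤ r + 1/2 - 1/2000 := by
  linarith only [mul_nonneg zOppp zB2, mul_nonneg zB3 yC1, mul_nonneg yB1 s_z1_p,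
    mul_nonneg yB2 s_y2_m, mul_nonneg yB2 yB3, mul_nonneg zC2 zC3, mul_nonneg r1 yB2,
    mul_nonneg zOmpp s_y2_m, mul_nonneg zOppp s_y2_m, mul_nonneg r1 s_z1_p,
    mul_nonneg zOppp r1, mul_nonneg zB3 yB3, mul_nonneg zOmpp zB2, mul_nonneg yC1 yB1,
    mul_nonneg zOppp zB3, mul_nonneg zOmpp zB3, mul_nonneg yC1 s_y3_m,
    mul_nonneg zOppp s_y3_m, mul_nonneg zOppm r1, mul_nonneg zOmpp s_y3_m,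
    mul_nonneg zB2 yB2, mul_nonneg zC2 zB2, mul_nonneg zC3 zB3, mul_nonneg r1 yOmpp,
    mul_nonneg zB2 yC1, mul_nonneg zC2 yB3, mul_nonneg r1 yC1, mul_nonneg yC1 s_y2_m,
    mul_nonneg zOpmp zC2, mul_nonneg zC1 yC1, mul_nonneg zC3 yB2, mul_nonneg r0 r1,
    mul_nonneg zC1 s_z1_p, mul_nonneg yB3 s_y3_m, mul_nonneg r1 yB3]

theorem cls4_26 (z1 z2 z3 r y1 y2 y3 : ℝ)
    (r0 : 0 ≤ r - 1/4)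
    (yB2 : 0 ≤ 81/1000 + y2 + 7/40 * (y1 + y2 + y3))
    (zC3 : 0 ≤ 21/100 + 25/42 * r - z3)
    (s_y3_m : 0 ≤ -(y3))
    (zB1 : 0 ≤ 81/1000 + z1 + 7/40 * (z1 + z2 + z3))
    (s_z1_m : 0 ≤ -(z1))
    (zOmpp : 0 ≤ 27/64 + 8/9 * r + z1 - z2 - z3)
    (zB3 : 0 ≤ 81/1000 + z3 + 7/40 * (z1 + z2 + z3))
    (yB3 : 0 ≤ 81/1000 + y3 + 7/40 * (y1 + y2 + y3))
    (yC1 : 0 ≤ 533/1050 - y1)
    (r1 : 0 ≤ 1/2 - r)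
    (zB2 : 0 ≤ 81/1000 + z2 + 7/40 * (z1 + z2 + z3))
    (yOmmp : 0 ≤ 499/576 + y1 + y2 - y3)
    (zC2 : 0 ≤ 21/100 + 25/42 * r - z2)
    (zOppp : 0 ≤ 27/64 + 8/9 * r - z1 - z2 - z3)
    (s_y2_m : 0 ≤ -(y2))
    (yB1 : 0 ≤ 81/1000 + y1 + 7/40 * (y1 + y2 + y3))
    (zOpmm : 0 ≤ 27/64 + 8/9 * r - z1 + z2 + z3)
    (yOpmp : 0 ≤ 499/576 - y1 + y2 - y3)
    (yOmpp : 0 ≤ 499/576 + y1 - y2 - y3)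
    (yOmpm : 0 ≤ 499/576 + y1 - y2 + y3) :
    (z1 - y1) ^ 2 + (z2 - y2) ^ 2 + (z3 - y3) ^ 2 ≤ r + 1/2 - 1/2000 := by
  linarith only [mul_nonneg r0 yB2, mul_nonneg zC3 s_y3_m, mul_nonneg zB1 s_z1_m,
    mul_nonneg zOmpp zB3, mul_nonneg yB2 yB3, mul_nonneg zB3 yC1, mul_nonneg zB1 r1,
    mul_nonneg zB2 yC1, mul_nonneg r0 yB3, mul_nonneg yOmmp yC1, mul_nonneg zB3 r0,
    mul_nonneg zB2 r0, mul_nonneg zC2 yB3, mul_nonneg zOppp zB1, mul_nonneg zB1 s_y2_m,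
    mul_nonneg zC2 s_y2_m, mul_nonneg yC1 yB1, mul_nonneg zB2 yB2, mul_nonneg zC3 yB2,
    mul_nonneg zC2 zB2, mul_nonneg zOmpp zB2, mul_nonneg yB2 s_y2_m, mul_nonneg zOmpp r1,
    mul_nonneg zOpmm zB1, mul_nonneg r0 r1, mul_nonneg zC3 zB3, mul_nonneg zB1 yOpmp,
    mul_nonneg yOmpp yC1, mul_nonneg yOmpm yC1, mul_nonneg zB3 yB3, mul_nonneg zOpmm yC1,
    mul_nonneg yC1 s_z1_m, mul_nonneg yB3 s_y3_m, mul_nonneg zC2 zC3]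

end Vale.Agent.P052.H638
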