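import Vale.Agent.P052.H638.Poly4a
import Vale.Agent.P052.H638.Poly4b
import Vale.Agent.P052.H638.Poly4c
import Vale.Agent.P052.H638.Poly4d

set_option autoImplicit false
set_option linter.unusedVariables false

namespace Vale.Agent.P052.H638

theorem cls4 (z1 z2 z3 r y1 y2 y3 : ℝ)
    (zOmmm : 0 ≤ 27/64 + 8/9 * r + z1 + z2 + z3)
    (zOpmm : 0 ≤ 27/64 + 8/9 * r - z1 + z2 + z3)
    (zOmpm : 0 ≤ 27/64 + 8/9 * r + z1 - z2 + z3)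
    (zOppm : 0 ≤ 27/64 + 8/9 * r - z1 - z2 + z3)
    (zOmmp : 0 ≤ 27/64 + 8/9 * r + z1 + z2 - z3)
    (zOpmp : 0 ≤ 27/64 + 8/9 * r - z1 + z2 - z3)
    (zOmpp : 0 ≤ 27/64 + 8/9 * r + z1 - z2 - z3)
    (zOppp : 0 ≤ 27/64 + 8/9 * r - z1 - z2 - z3)
    (zC1 : 0 ≤ 21/100 + 25/42 * r - z1)
    (zC2 : 0 ≤ 21/100 + 25/42 * r - z2)
    (zC3 : 0 ≤ 21/100 + 25/42 * r - z3)
    (zB1 : 0 ≤ 81/1000 + z1 + 7/40 * (z1 + z2 + z3))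
    (zB2 : 0 ≤ 81/1000 + z2 + 7/40 * (z1 + z2 + z3))
    (zB3 : 0 ≤ 81/1000 + z3 + 7/40 * (z1 + z2 + z3))
    (yOmmm : 0 ≤ 499/576 + y1 + y2 + y3)
    (yOpmm : 0 ≤ 499/576 - y1 + y2 + y3)
    (yOmpm : 0 ≤ 499/576 + y1 - y2 + y3)
    (yOppm : 0 ≤ 499/576 - y1 - y2 + y3)
    (yOmmp : 0 ≤ 499/576 + y1 + y2 - y3)
    (yOpmp : 0 ≤ 499/576 - y1 + y2 - y3)
    (yOmpp : 0 ≤ 499/576 + y1 - y2 - y3)
    (yOppp : 0 ≤ 499/576 - y1 - y2 - y3)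
    (yC1 : 0 ≤ 533/1050 - y1)
    (yC2 : 0 ≤ 533/1050 - y2)
    (yC3 : 0 ≤ 533/1050 - y3)
    (yB1 : 0 ≤ 81/1000 + y1 + 7/40 * (y1 + y2 + y3))
    (yB2 : 0 ≤ 81/1000 + y2 + 7/40 * (y1 + y2 + y3))
    (yB3 : 0 ≤ 81/1000 + y3 + 7/40 * (y1 + y2 + y3))
    (r0 : 0 ≤ r - 1/4)
    (r1 : 0 ≤ 1/2 - r) :
    (z1 - y1) ^ 2 + (z2 - y2) ^ 2 + (z3 - y3) ^ 2 ≤ r + 1/2 - 1/2000 := by
  rcases le_total 0 (y3) with s_y3_p | s_y3_m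
  · rcases le_total 0 (y2) with s_y2_p | s_y2_m
    · rcases le_total 0 (z1) with s_z1_p | s_z1_m
      · rcases le_total 0 (z3) with s_z3_p | s_z3_m
        · rcases le_total 0 (y1) with s_y1_p | s_y1_m
          · exact cls4_0 z1 z2 z3 r y1 y2 y3 r0 yC2 s_z3_p zOppp zC3 yC3 zOpmp zC2 yC1 s_y1_p s_z1_p s_y2_p zB2 s_y3_p zC1 yOppm r1 yOppp yOpmp
          · replace s_y1_m := neg_nonneg.2 s_y1_m
            rcases le_total 0 (z2) with s_z2_p | s_z2_m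
            · exact cls4_1 z1 z2 z3 r y1 y2 y3 yB1 s_z1_p zC1 s_y3_p s_z3_p r0 s_y1_m yOmpp s_y2_p yC2 yC3 s_z2_p r1 zC2 zOppp zC3 yOppp zOmpp
            · replace s_z2_m := neg_nonneg.2 s_z2_m
              exact cls4_2 z1 z2 z3 r y1 y2 y3 zC3 zB2 yC2 s_z2_m r0 s_y3_p zOpmp s_z3_p yOmpp zC1 s_y2_p yB1 s_z1_p yC3 r1 s_y1_m
        · replace s_z3_m := neg_nonneg.2 s_z3_m
          rcases le_total 0 (z2) with s_z2_p | s_z2_m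
          · rcases le_total 0 (y1) with s_y1_p | s_y1_m
            · exact cls4_3 z1 z2 z3 r y1 y2 y3 zB3 s_z1_p r0 s_y2_p s_z3_m zOppm s_y3_p zC2 yC2 zC1 yC1 yC3 yOpmp s_y1_p s_z2_p r1 yOppp yOppm
            · replace s_y1_m := neg_nonneg.2 s_y1_m
              exact cls4_4 z1 z2 z3 r y1 y2 y3 yC2 yC3 yB1 s_z1_p zB3 s_z3_m zOppm s_y3_p s_y1_m s_z2_p zC1 r1 yOmpp zC2 s_y2_p r0
          · replace s_z2_m := neg_nonneg.2 s_z2_m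
            rcases le_total 0 (y1) with s_y1_p | s_y1_m
            · exact cls4_5 z1 z2 z3 r y1 y2 y3 zB3 s_y3_p zB2 yC3 yC2 s_y2_p s_z3_m yC1 s_y1_p yOmpp s_z2_m zC1 zOpmm r0 s_z1_p r1 yOppp yOmmp yB1 yOmpm
            · replace s_y1_m := neg_nonneg.2 s_y1_m
              exact cls4_6 z1 z2 z3 r y1 y2 y3 zOppp r0 zB3 s_y3_p zB2 s_z2_m s_z3_m zOmpp zC1 yOmpp s_y2_p yB1 s_y1_m yOppp zOpmm yC2 yOppm yOpmp zB1 yC3 r1 yOmmm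
      · replace s_z1_m := neg_nonneg.2 s_z1_m
        rcases le_total 0 (z2) with s_z2_p | s_z2_m
        · rcases le_total 0 (z3) with s_z3_p | s_z3_m
          · exact cls4_7 z1 z2 z3 r y1 y2 y3 yC1 s_z2_p s_y3_p s_z3_p zB1 yOpmp zC2 yC2 r0 r1 zC3 yC3 zOmpp yOmpp yOppp yB1 s_z1_m s_y2_p yOppm
          · replace s_z3_m := neg_nonneg.2 s_z3_m
            exact cls4_8 z1 z2 z3 r y1 y2 y3 zC2 yC2 zB1 zB3 s_z3_m yC3 s_y3_p s_y2_p yOpmp r0 r1 yC1 s_z2_p yB2 yOppp yB1 zOmpp s_z1_m yOmpp zOppm zOmpm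
        · replace s_z2_m := neg_nonneg.2 s_z2_m
          rcases le_total 0 (y1) with s_y1_p | s_y1_m
          · exact cls4_9 z1 z2 z3 r y1 y2 y3 r0 yOmpp yOppm s_y2_p zB2 yOppp s_z2_m zC3 zB3 zOmpp yC1 yC2 yC3 s_y1_p s_z1_m r1 zB1 zOpmp s_y3_p yB3 zOmmp yOpmp
          · replace s_y1_m := neg_nonneg.2 s_y1_m
            exact cls4_10 z1 z2 z3 r y1 y2 y3 s_z1_m s_y1_m zC3 yC3 r0 zOmpp yOmpp s_y3_p s_y2_p zB2 zB3 yC2 s_z2_m zB1 yB1 yOppp yOpmm zOppp yB3 yOmmp r1 yB2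
    · replace s_y2_m := neg_nonneg.2 s_y2_m
      rcases le_total 0 (z1) with s_z1_p | s_z1_m
      · rcases le_total 0 (y1) with s_y1_p | s_y1_m
        · rcases le_total 0 (z3) with s_z3_p | s_z3_m
          · exact cls4_11 z1 z2 z3 r y1 y2 y3 zB2 yB2 yC3 s_y3_p zOmpp s_z3_p zC2 s_y1_p s_y2_m zC1 yC1 zC3 zOppp r0 yOpmp r1 s_z1_p zOpmp zOppm
          · replace s_z3_m := neg_nonneg.2 s_z3_m
            exact cls4_12 z1 z2 z3 r y1 y2 y3 yB2 s_y2_m zB3 s_y3_p zB2 r0 s_z3_m yC3 s_z1_p r1 s_y1_p zC1 yOpmp zOppm zC2 yC1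
        · replace s_y1_m := neg_nonneg.2 s_y1_m
          exact cls4_13 z1 z2 z3 r y1 y2 y3 zOppm s_y1_m s_y3_p r0 r1 yB1 yC3 s_y2_m yB2 zOmpp zB3 zC2 zB2 zC1 s_z1_p zC3 zOppp zOpmp
      · replace s_z1_m := neg_nonneg.2 s_z1_m
        rcases le_total 0 (z3) with s_z3_p | s_z3_m
        · rcases le_total 0 (y1) with s_y1_p | s_y1_m
          · exact cls4_14 z1 z2 z3 r y1 y2 y3 s_y3_p s_z3_p yB2 s_y1_p r1 yOpmp zOmpp yC3 yC1 zB1 zC2 zB2 zC3 r0 s_z1_m s_y2_m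
          · replace s_y1_m := neg_nonneg.2 s_y1_m
            exact cls4_15 z1 z2 z3 r y1 y2 y3 zOppp r0 yOpmp yOmmm zB1 s_z1_m yB2 s_y2_m zOpmp yB1 s_y1_m r1 yC3 zC2 zOmmp zC3 zOmmm zOmpp yB3 s_z3_p zB3 zB2 yOmpm zOpmm yOmpp yOmmp zOppm
        · replace s_z3_m := neg_nonneg.2 s_z3_m
          rcases le_total 0 (y1) with s_y1_p | s_y1_m
          · exact cls4_16 z1 z2 z3 r y1 y2 y3 zOppm r0 zB1 zB3 s_z3_m s_y3_p yOppp yB2 yOpmp s_y1_p s_z1_m zC2 yOppm yOmpm yOmpp zB2 yC3 zOpmp r1 s_y2_m yC1 zOpmm zOmpp yOmmm zOmpm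
          · replace s_y1_m := neg_nonneg.2 s_y1_m
            exact cls4_17 z1 z2 z3 r y1 y2 y3 zC2 s_y2_m zOppm s_y1_m zOmpp s_z1_m zB3 s_z3_m yOmpm yB2 zOmmm zOmmp zOppp r0 yOmpp yC3 yOpmp r1 zOpmp zOmpm yOpmm yB1 yB3 yOppm zB1 zB2
  · replace s_y3_m := neg_nonneg.2 s_y3_m
    rcases le_total 0 (y2) with s_y2_p | s_y2_m
    · rcases le_total 0 (z1) with s_z1_p | s_z1_m
      · rcases le_total 0 (y1) with s_y1_p | s_y1_m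
        · rcases le_total 0 (z2) with s_z2_p | s_z2_m
          · exact cls4_18 z1 z2 z3 r y1 y2 y3 yC1 yC2 zC3 s_y1_p zOppp r0 s_z2_p s_z1_p r1 yOppm zOppm s_y2_p zB3 yB3 zC2 zOpmp s_y3_m zC1 zOmpp
          · replace s_z2_m := neg_nonneg.2 s_z2_m
            exact cls4_19 z1 z2 z3 r y1 y2 y3 zC3 s_y3_m zOpmp s_z2_m yC2 s_z1_p zB2 r1 zB3 yOppm zC1 yC1 r0 s_y1_p yB3 s_y2_p
        · replace s_y1_m := neg_nonneg.2 s_y1_m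
          exact cls4_20 z1 z2 z3 r y1 y2 y3 zC2 zB2 zC1 yB3 zC3 zB3 r1 yC2 yB1 zOpmp s_z1_p s_y2_p zOmpp zOppp s_y3_m r0 s_y1_m zOppm
      · replace s_z1_m := neg_nonneg.2 s_z1_m
        rcases le_total 0 (z2) with s_z2_p | s_z2_m
        · rcases le_total 0 (y1) with s_y1_p | s_y1_m
          · exact cls4_21 z1 z2 z3 r y1 y2 y3 zB3 yOppm yC2 yB3 zC2 r0 r1 zOmpp s_y2_p s_z2_p zC3 yC1 s_z1_m zB1 s_y1_p s_y3_m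
          · replace s_y1_m := neg_nonneg.2 s_y1_m
            exact cls4_22 z1 z2 z3 r y1 y2 y3 yOmpm s_y1_m yC2 s_y3_m r0 r1 zOmpp s_z2_p zC3 yOmmm yB3 yOpmm zOmmm zOppp yB1 zOpmm zB1 yB2 zC2 s_z1_m yOmpp zB2 zOpmp yOppm yOpmp zOppm yOmmp zB3
        · replace s_z2_m := neg_nonneg.2 s_z2_m
          rcases le_total 0 (y1) with s_y1_p | s_y1_m
          · exact cls4_23 z1 z2 z3 r y1 y2 y3 zOppm zC3 yOppm s_z2_m zOpmp r0 zB3 zOpmm yB3 yC2 yOppp zB2 s_y2_p yOmmp zB1 s_y3_m zOmmp yOpmp zOmpm yOmpp zOmpp s_y1_p yC1 r1 s_z1_m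
          · replace s_y1_m := neg_nonneg.2 s_y1_m
            exact cls4_24 z1 z2 z3 r y1 y2 y3 zOppm zC3 yC2 s_z2_m zB2 zOmpp r0 zOmmm yB2 zB1 s_z1_m s_y3_m zB3 yOpmm yB1 s_y1_m yOmmm zOppp r1 yB3 yOpmp yOppm yOmmp zOmpm yOmpp zOpmp
    · replace s_y2_m := neg_nonneg.2 s_y2_m
      rcases le_total 0 (z1) with s_z1_p | s_z1_m
      · exact cls4_25 z1 z2 z3 r y1 y2 y3 zOppp zB2 zB3 yC1 yB1 s_z1_p yB2 s_y2_m yB3 zC2 zC3 r1 zOmpp s_y3_m zOppm yOmpp zOpmp zC1 r0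
      · replace s_z1_m := neg_nonneg.2 s_z1_m
        exact cls4_26 z1 z2 z3 r y1 y2 y3 r0 yB2 zC3 s_y3_m zB1 s_z1_m zOmpp zB3 yB3 yC1 r1 zB2 yOmmp zC2 zOppp s_y2_m yB1 zOpmm yOpmp yOmpp yOmpm

end Vale.Agent.P052.H638
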